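import Vale.Agent.P122.C.Defs2
import Vale.Agent.P122.C.RVDefs
import Vale.Agent.P127.U.Blocks1

/-!
# P122 / E : regular multiscale systems, definitions of [RG] and [EN] (helper357)

`K` levels, scale `L = K n`, all entropies divided by `L log 2`.  Level `c` : tubes of radius `2^(c n)`, length `2^(2 c n)`,
exponents `c / K`, `2 c / K`.

* `Flg K` : system of flags; `F.N c` the node (tube) of level `c`.
* `Cnt`, `Unf`, `Rare` : counts on the support, upper bounds of probabilities, exponentially small events; they pass to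
  dense laws `Dns`.
* `RegA` : output of the first part of [RG]; `RegB` : after the refinement for the frames.
-/

set_option autoImplicit false

namespace Vale.Agent.P122.E

open Filter Topology Finset Vale.Agent.P127 Vale.Agent.P127.Stk Vale.Agent.P127.U Vale.Agent.P127.U.Sys Vale.Agent.P122.C2

/-! ### counts on the support -/

section counts

variable (S : Sys) {α β : Type*}

/-- on the support `X` takes at most `2^(r L + o(L))` values for each value of `Z` -/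
def Cnt (X : S.RV α) (Z : S.RV β) (r : ℝ) : Prop :=
  ∀ ε : ℝ, 0 < ε → ∀ᶠ i in (uf : Filter ℕ), ∀ ω, 0 < (S.P i).w ω →
    ∃ U : Finset α, (U.card : ℝ) ≤ (2 : ℝ) ^ ((r + ε) * S.L i) ∧
      ∀ ω', 0 < (S.P i).w ω' → Z i ω' = Z i ω → X i ω' ∈ U

/-- all values of `X` have probability at most `2^(-r L + o(L))` -/
def Unf (X : S.RV α) (r : ℝ) : Prop :=
  ∀ ε : ℝ, 0 < ε → ∀ᶠ i in (uf : Filter ℕ), ∀ ω,
    (S.P i).pr (X i) (X i ω) ≤ (2 : ℝ) ^ ((-r + ε) * S.L i)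

open Classical in
/-- probability of an event -/
noncomputable def prb (E : ∀ i, S.Ω i → Prop) (i : ℕ) : ℝ := (S.P i).ex fun ω => if E i ω then 1 else 0

/-- exponentially small event -/
def Rare (E : ∀ i, S.Ω i → Prop) : Prop :=
  ∃ η : ℝ, 0 < η ∧ ∀ᶠ i in (uf : Filter ℕ), prb S E i ≤ (2 : ℝ) ^ (-(η * S.L i))

end counts

/-- `S'` is dense in `S` : the law of `π` is at most `2^(o(L))` times the law of `S` -/
structure Dns (S' S : Sys) where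
  π : ∀ i, S'.Ω i → S.Ω i
  L_eq : S'.L = S.L
  dom : ∀ ε : ℝ, 0 < ε → ∀ᶠ i in (uf : Filter ℕ), ∀ ω,
    (S'.P i).pr (π i) ω ≤ (2 : ℝ) ^ (ε * S.L i) * (S.P i).w ω

/-- pull back of a variable -/
def Dns.pull {S' S : Sys} {α : Type*} (d : Dns S' S) (X : S.RV α) : S'.RV α := fun i ω => X i (d.π i ω)

/-- pull back of a box -/
def Dns.pullB {S' S : Sys} (d : Dns S' S) (B : S.BX) : S'.BX := fun i => (B i).comp (d.π i)

/-! ### systems of flags -/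

/-- a system of flags: `N c` is the node of level `c ≤ K` -/
structure Flg (K : ℕ) where
  C : ℝ
  S : Sys
  n : ℕ → ℕ
  L_eq : ∀ i, S.L i = K * n i
  s : ℕ → ℕ → Z2 → Fin 2 → ℝ
  slp : ∀ i, Slp C (n i) K (s i)
  N : ℕ → S.RV Nd
  root : ∀ i ω, 0 < (S.P i).w ω → (N 0 i ω).τ = 0 ∧ 0 ≤ (N 0 i ω).T ∧ (N 0 i ω).T < 2 ^ (2 * K * n i)
  top : ∀ i ω, 0 < (S.P i).w ω → ∀ k, |((N K i ω).o k : ℝ)| ≤ C * 2 ^ (K * n i)
  step : ∀ i ω, 0 < (S.P i).w ω → ∀ c, c < K → (N (c + 1) i ω).τ ∈ kids (n i) (N c i ω).τ ∧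
    N (c + 1) i ω = ((N c i ω).sg (n i)).ch (s i) (n i) c (N (c + 1) i ω).τ

namespace Flg

variable {K : ℕ} (F : Flg K)

/-- the starting cell -/
def x : F.S.RV Nd := F.N 0

/-- the cap of level `c` -/
def Y (c : ℕ) : F.S.RV Z2 := fun i ω => (F.N c i ω).τ

/-- the time block of level `c` -/
def T (c : ℕ) : F.S.RV ℤ := fun i ω => (F.N c i ω).T

/-- the piece of radius `c + 1` and length `2 c` around the tube of level `c`, with its cap -/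
noncomputable def sg (c : ℕ) : F.S.RV Nd := fun i ω => (F.N c i ω).sg (F.n i)

/-- the piece of radius `d` and length `2 c` (cap of level `2 c - d`) around the tube of level `c` -/
noncomputable def sig (c d : ℕ) : F.S.RV Nd := fun i ω =>
  ⟨fun k => (F.N c i ω).τ k / 2 ^ ((d - c) * F.n i), fun k => (F.N c i ω).o k / 2 ^ ((d - c) * F.n i), (F.N c i ω).T⟩

/-- the ball of radius `2 c` -/
def ball (c : ℕ) : F.S.RV (ℤ × Z2) := fun i ω => ((F.N c i ω).T, fun k => (F.N c i ω).o k / 2 ^ (c * F.n i))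

/-- the line of the tube of level `c` in the coordinates of its ball -/
noncomputable def ln (c : ℕ) : F.S.RV Ln := fun i ω =>
  (fun k => Int.fract (((F.N c i ω).o k : ℝ) / 2 ^ (c * F.n i)), F.s i c (F.N c i ω).τ)

/-- the number of digits of the level `c` -/
def m (c : ℕ) : ℕ → ℕ := fun i => c * F.n i

/-- excess of the tubes of level `c` -/
noncomputable def exc (c : ℕ) : ℝ := F.S.exc (tubes (F.m c) (F.ln c)) (F.ball c)

/-- the time deficit -/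
noncomputable def D (c d : ℕ) : ℝ := 2 * ((d : ℝ) - c) / K - F.S.hc (F.T c) (F.N d)

/-- the restriction to a dense law -/
def res {S' : Sys} (d : Dns S' F.S) (h : ∀ i ω, 0 < (S'.P i).w ω → 0 < (F.S.P i).w (d.π i ω)) : Flg K where
  C := F.C
  S := S'
  n := F.n
  L_eq := fun i => by rw [d.L_eq]; exact F.L_eq i
  s := F.s
  slp := F.slp
  N := fun c => d.pull (F.N c)
  root := fun i ω hω => F.root i _ (h i ω hω)
  top := fun i ω hω => F.top i _ (h i ω hω)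
  step := fun i ω hω => F.step i _ (h i ω hω)

end Flg

/-- the tube `S` of level `c` is in the plank of frame `θ`, normalised widths `u1 ≤ u2`, centre `(p, v)` -/
def InP (s : ℕ → Z2 → Fin 2 → ℝ) (n c : ℕ) (θ u1 u2 : ℝ) (p v : Fin 2 → ℝ) (S : Nd) : Prop :=
  |fw θ (fun j => (S.o j : ℝ) / 2 ^ (c * n) - p j)| ≤ u2 ∧ |fn θ (fun j => (S.o j : ℝ) / 2 ^ (c * n) - p j)| ≤ u1 ∧
    |fw θ (fun j => s c S.τ j - v j)| ≤ u2 ∧ |fn θ (fun j => s c S.τ j - v j)| ≤ u1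

/-- the set `D` of tubes of level `c` has density at most `lam` in all planks -/
def Dens (s : ℕ → Z2 → Fin 2 → ℝ) (n c : ℕ) (D : Set Nd) (lam : ℝ) : Prop :=
  ∀ (θ u1 u2 : ℝ) (p v : Fin 2 → ℝ) (T : ℤ) (U : Finset Nd), (1 / 2 : ℝ) ^ (c * n) ≤ u1 → u1 ≤ u2 → u2 ≤ 1 →
    (∀ S ∈ U, S ∈ D ∧ S.T = T ∧ InP s n c θ u1 u2 p v S) → (U.card : ℝ) ≤ lam * (u1 * u2 * 2 ^ (2 * c * n))

/-- counting excess at most `e` at the level `c` -/
def ExU {K : ℕ} (F : Flg K) (c : ℕ) (e : ℝ) : Prop :=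
  ∀ ε : ℝ, 0 < ε → ∀ᶠ i in (uf : Filter ℕ),
    Dens (F.s i) (F.n i) c {S | ∃ ω, 0 < (F.S.P i).w ω ∧ F.N c i ω = S} ((2 : ℝ) ^ ((e + ε) * F.S.L i))

/-- **regular system of flags**, first part -/
structure RegA {K : ℕ} (F : Flg K) (J θ H e : ℕ → ℝ) (W : ℕ → F.S.BX) (kk jj : ℕ → ℕ → ℕ) : Prop where
  J0 : ∀ c, c < K → 0 ≤ J c
  e0 : ∀ c, c ≤ K → 0 ≤ e c
  /-- number of children -/
  kid : ∀ c, c < K → Cnt F.S (F.Y (c + 1)) (F.N c) (J c)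
  x1 : Cnt F.S F.x (one (S := F.S)) (H 0)
  flag : Unf F.S (Sys.pr F.x (F.Y K)) (H 0 + ∑ c ∈ range K, J c)
  Nu : ∀ c, c ≤ K → Unf F.S (F.N c) (H c)
  N1 : ∀ c, c ≤ K → Cnt F.S (F.N c) (one (S := F.S)) (H c)
  /-- [L] -/
  L : ∀ c, c < K → 2 * θ c ≤ J c
  /-- [B1] -/
  B1 : ∀ c, c < K → Cnt F.S (F.N c) (F.sg c) (2 / K - 2 * θ c)
  /-- upper bound of all densities -/
  exU : ∀ c, c ≤ K → ExU F c (e c)
  /-- the optimal planks -/
  Wok : ∀ c, c ≤ K → ∀ᶠ i in (uf : Filter ℕ), ∀ ω, 0 < (F.S.P i).w ω → (W c i).l ω = F.ln c i ω ∧ |(W c i).θ ω| ≤ 4 ∧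
    (W c i).k ω = kk c i ∧ (W c i).j ω = jj c i ∧ kk c i ≤ jj c i ∧ jj c i ≤ c * F.n i
  Wfn : ∀ c, c ≤ K → Sys.Fn (fun i ω => (W c i).θ ω) (F.N c)
  W1 : ∀ c, c ≤ K → Cnt F.S (Sys.pr (BX.lab (W c)) (F.ball c)) (one (S := F.S))
    (H c - e c - (2 * c / K - F.S.nu (kk c) - F.S.nu (jj c)) + 1 / K)

/-- box functional -/
noncomputable def nV (K : ℕ) (H e : ℕ → ℝ) (c : ℕ) : ℝ := H c + 4 * c / K - e c

/-- branching -/
noncomputable def nM (J : ℕ → ℝ) (c : ℕ) : ℝ := ∑ i ∈ range c, J i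

/-- `Δ - 2 Θ` -/
noncomputable def nE (K : ℕ) (J θ H : ℕ → ℝ) (c : ℕ) : ℝ := 4 * c / K - (H 0 + nM J c - H c) - 2 * ∑ i ∈ range c, θ i

/-- thickness exponent of the planks -/
noncomputable def nα {K : ℕ} (F : Flg K) (jj : ℕ → ℕ → ℕ) (c : ℕ) : ℝ := 2 * c / K - F.S.nu (jj c)

/-- the level `c` is thin -/
def Thin {K : ℕ} (F : Flg K) (e : ℕ → ℝ) (jj : ℕ → ℕ → ℕ) (κ c1 : ℝ) (c : ℕ) : Prop :=
  c1 ≤ e c ∧ nα F jj c - (c : ℝ) / K ≤ κ * e c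

/-- **regular system of flags** with frames `φ c i σ` and normal branching `JF` at the thin levels -/
structure RegB {K : ℕ} (F : Flg K) (J θ H e : ℕ → ℝ) (W : ℕ → F.S.BX) (kk jj : ℕ → ℕ → ℕ) (κ c1 : ℝ)
    (φ : ℕ → ℕ → Nd → ℝ) (JF : ℕ → ℝ) : Prop extends RegA F J θ H e W kk jj where
  JF0 : ∀ c, c < K → 0 ≤ JF c
  JF1 : ∀ c, c < K → JF c ≤ 1 / K
  /-- the wide direction of the optimal plank is a function of the piece `sg` -/
  frame : ∀ c, 1 ≤ c → c < K → Thin F e jj κ c1 c → ∀ᶠ i in (uf : Filter ℕ), ∀ ω, 0 < (F.S.P i).w ω →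
    |Real.sin ((W c i).θ ω - φ c i (F.sg c i ω))| ≤ (2 : ℝ) ^ (-(c1 / 2 * F.S.L i))
  /-- [B2] count of the tubes in strips -/
  B2 : ∀ c, 1 ≤ c → c < K → Thin F e jj κ c1 c → Cnt F.S (F.N c)
    (Sys.pr (F.sg c) fun i ω => ⌊fn (φ c i (F.sg c i ω)) fun j => ((F.N c i ω).o j : ℝ)⌋) (1 / K - 2 * θ c + JF c)
  /-- count of the children with the same digit of the normal slope -/
  C2 : ∀ c, 1 ≤ c → c < K → Thin F e jj κ c1 c → Cnt F.S (F.Y (c + 1))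
    (Sys.pr (F.N c) fun i ω => ⌊2 ^ ((c + 1) * F.n i) * fn (φ c i (F.sg c i ω)) (F.s i (c + 1) (F.Y (c + 1) i ω))⌋)
    (J c - JF c)

/-- accumulated normal branching of the thin levels -/
noncomputable def ng {K : ℕ} (F : Flg K) (e : ℕ → ℝ) (jj : ℕ → ℕ → ℕ) (κ c1 : ℝ) (JF : ℕ → ℝ) (c : ℕ) : ℝ := by
  classical
  exact ∑ i ∈ range c, if 1 ≤ i ∧ Thin F e jj κ c1 i then JF i else 0

/-! ### the statements of [EN] -/

/-- all data of a regular system -/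
def AllA (P : ∀ {K : ℕ} (F : Flg K) (J θ H e : ℕ → ℝ) (_ : ℕ → F.S.BX) (_ _ : ℕ → ℕ → ℕ), Prop) : Prop :=
  ∀ {K : ℕ} (F : Flg K) (J θ H e : ℕ → ℝ) (W : ℕ → F.S.BX) (kk jj : ℕ → ℕ → ℕ), 1 ≤ K → RegA F J θ H e W kk jj →
    P F J θ H e W kk jj

/-- **E1** entropies -/
def E1 : Prop := AllA fun {K} F J _ H _ _ _ _ =>
  (∀ c, c ≤ K → F.S.hc (F.N c) (one (S := F.S)) = H c) ∧
  (∀ c d, c ≤ d → d ≤ K → F.S.hc (F.Y d) (F.N c) = nM J d - nM J c) ∧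
  (∀ c d, c ≤ d → d ≤ K → F.S.hc (F.Y d) (Sys.pr F.x (F.Y c)) = nM J d - nM J c) ∧
  (∀ c d, c ≤ d → d ≤ K → F.S.hc (F.Y d) (Sys.pr F.x (F.N c)) = nM J d - nM J c) ∧
  (∀ c, c ≤ K → F.S.hc F.x (F.N c) = H 0 + nM J c - H c) ∧
  (∀ c d, c ≤ d → d ≤ K → F.S.hc F.x (Sys.pr (F.N c) (F.N d)) = H 0 + nM J c - H c)

/-- **E2** monotonicity -/
def E2 : Prop := AllA fun {K} _ J θ H _ _ _ _ => ∀ c d, c ≤ d → d ≤ K → nE K J θ H c ≤ nE K J θ H d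

/-- **E3** the excess of the framework is at most the counting excess -/
def E3 : Prop := ∀ {K : ℕ} (F : Flg K) (c : ℕ) (e : ℝ), 1 ≤ K → c ≤ K → 0 ≤ e → ExU F c e → F.exc c ≤ e

/-- **E4 = (K)** Kakeya step, for every system of flags and every random box `W'` which contains the piece `sig c d` -/
def E4 : Prop := ∀ {K : ℕ} (F : Flg K) (c d : ℕ), 1 ≤ K → 1 ≤ c → c ≤ d → d ≤ 2 * c → d ≤ K →
  ∀ (S' : Sys) (ex : Ext S' F.S) (W' : S'.BX),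
    SubA (tubes (F.m (2 * c - d)) (ex.pull (F.ln c))) W' →
    F.S.hc (F.N d) (one (S := F.S)) + 4 * d / K - F.exc d ≤
      F.S.hc (F.sig c d) (one (S := F.S)) - S'.hc (ex.pull (F.sig c d)) (Sys.pr (BX.lab W') (ex.pull (F.ball c))) +
        6 * c / K - S'.av W'.sz + 3 * F.D c d

/-- **E5** Lipschitz and trivial steps -/
def E5 (C₀ : ℝ) : Prop := AllA fun {K} _ J θ H e _ _ _ =>
  (∀ i j, i ≤ K → j ≤ K → |e i - e j| ≤ C₀ * |(i:ℝ) - j| / K + C₀ / K) ∧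
  (∀ i, i ≤ K → nV K H e i ≤ nV K H e 0 + 3 * nE K J θ H i + C₀ * i / K + C₀ / K) ∧
  (∀ i j, i ≤ j → j ≤ 2 * i → j ≤ K →
    nV K H e j ≤ nV K H e i + 3 * (nE K J θ H j - nE K J θ H i) + C₀ * ((j:ℝ) - i) / K + C₀ / K)

/-- **E6 = (A)** step with a fat box -/
def E6 (C₀ : ℝ) : Prop := AllA fun {K} F J θ H e _ _ jj =>
  ∀ c i j, i ≤ j → j ≤ 2 * i → j ≤ K → j ≤ 2 * c → c ≤ K → (j:ℝ) / K ≤ nα F jj c →
    nV K H e j ≤ nV K H e i + 3 * (nE K J θ H j - nE K J θ H i) + C₀ * |(c:ℝ) - i| / K + C₀ / K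

/-- **E7 = (S)** step with the tubes themselves -/
def E7 (C₀ : ℝ) : Prop := AllA fun {K} _ J θ H e _ _ _ =>
  ∀ i j, i ≤ j → j ≤ 2 * i → j ≤ K →
    nV K H e j ≤ nV K H e i + e i + 3 * (nE K J θ H j - nE K J θ H i) +
      ((nM J j - nM J i) - (nM J i - nM J (2 * i - j))) + C₀ / K

/-- **E8** frames: at neighbouring thin levels `c ≤ c' ≤ d` the wide directions of both optimal planks are functions of
the piece `sig c d` -/
def E8 (κ C₀ : ℝ) : Prop := AllA fun {K} F _ _ _ e W _ jj =>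
  ∀ (c1 : ℝ) (c c' d : ℕ), 0 < c1 → 1 ≤ c → c ≤ c' → c' ≤ d → d ≤ 2 * c → d ≤ K →
    ((d:ℝ) - c) / K ≤ κ * c1 → C₀ / K ≤ c1 → Thin F e jj κ c1 c → Thin F e jj κ c1 c' →
    ∃ ψ : ℕ → Nd → ℝ,
      Rare F.S (fun i ω => (2 : ℝ) ^ (-(c1 / 2 * F.S.L i)) < |Real.sin ((W c i).θ ω - ψ i (F.sig c d i ω))|) ∧
      Rare F.S (fun i ω => (2 : ℝ) ^ (-(c1 / 2 * F.S.L i)) < |Real.sin ((W c' i).θ ω - ψ i (F.sig c d i ω))|)

/-- **E9 = (P)** step with a thin plank -/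
def E9 (κ C₀ : ℝ) : Prop :=
  ∀ {K : ℕ} (F : Flg K) (J θ H e : ℕ → ℝ) (W : ℕ → F.S.BX) (kk jj : ℕ → ℕ → ℕ) (c1 : ℝ) (φ : ℕ → ℕ → Nd → ℝ)
    (JF : ℕ → ℝ), 1 ≤ K → 0 < c1 → C₀ / K ≤ c1 → RegB F J θ H e W kk jj κ c1 φ JF →
    ∀ i j u, i ≤ j → j ≤ 2 * i → j ≤ K → i + u ≤ j → ((j:ℝ) - i) / K ≤ κ * c1 →
      (∀ c, 2 * i - j ≤ c → c ≤ j → Thin F e jj κ c1 c) → |nα F jj i - ((i:ℝ) + u) / K| ≤ 1 / K →
      nV K H e j ≤ nV K H e i + 3 * (nE K J θ H j - nE K J θ H i) +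
        ((ng F e jj κ c1 JF j - ng F e jj κ c1 JF (i + u)) -
          (ng F e jj κ c1 JF (i - u) - ng F e jj κ c1 JF (2 * i - j))) + C₀ / K

end Vale.Agent.P122.E
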