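import Vale.Agent.P122.E.Defs

/-!
# P122 / E : restriction of regular systems of flags to dense laws (helper357)

`Cnt`, `Unf`, `Rare`, `ExU`, `RegA`, `RegB` pass to dense laws.
-/

set_option autoImplicit false

namespace Vale.Agent.P122.E

open Filter Topology Finset Vale.Agent.P127 Vale.Agent.P127.Stk Vale.Agent.P127.U Vale.Agent.P127.U.Sys Vale.Agent.P122.C2

section finite

variable {Ω Ω' : Type} [Fintype Ω] [Fintype Ω'] {α : Type*}

theorem ex_comp_eq (Q : Law Ω') (π : Ω' → Ω) (f : Ω → ℝ) : Q.ex (fun ω => f (π ω)) = ∑ ω, Q.pr π ω * f ω := by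
  classical
  unfold Law.ex Law.pr
  calc ∑ ω', Q.w ω' * f (π ω') = ∑ ω, ∑ ω' with π ω' = ω, Q.w ω' * f (π ω') :=
        (Finset.sum_fiberwise _ _ _).symm
    _ = ∑ ω, (∑ ω' with π ω' = ω, Q.w ω') * f ω := by
        refine Finset.sum_congr rfl fun ω _ => ?_
        rw [Finset.sum_mul]
        refine Finset.sum_congr rfl fun ω' hω' => ?_
        rw [(Finset.mem_filter.1 hω').2]
    _ = _ := by
        refine Finset.sum_congr rfl fun ω _ => ?_
        congr 1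

theorem ex_comp_le {Q : Law Ω'} {P : Law Ω} {π : Ω' → Ω} {K : ℝ} (h : ∀ ω, Q.pr π ω ≤ K * P.w ω)
    {f : Ω → ℝ} (hf : ∀ ω, 0 ≤ f ω) : Q.ex (fun ω => f (π ω)) ≤ K * P.ex f := by
  rw [ex_comp_eq]
  unfold Law.ex
  rw [Finset.mul_sum]
  refine Finset.sum_le_sum fun ω _ => ?_
  have := mul_le_mul_of_nonneg_right (h ω) (hf ω)
  linarith

theorem pr_comp_le {Q : Law Ω'} {P : Law Ω} {π : Ω' → Ω} {K : ℝ} (h : ∀ ω, Q.pr π ω ≤ K * P.w ω)
    (X : Ω → α) (x : α) : Q.pr (fun ω => X (π ω)) x ≤ K * P.pr X x := by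
  classical
  have h1 : Q.pr (fun ω => X (π ω)) x = Q.ex (fun ω => if X (π ω) = x then 1 else 0) := by
    unfold Law.pr Law.ex
    rw [Finset.sum_filter]
    refine Finset.sum_congr rfl fun ω _ => ?_
    split_ifs <;> simp_all
  have h2 : P.pr X x = P.ex (fun ω => if X ω = x then 1 else 0) := by
    unfold Law.pr Law.ex
    rw [Finset.sum_filter]
    refine Finset.sum_congr rfl fun ω _ => ?_
    split_ifs <;> simp_all
  rw [h1, h2]
  exact ex_comp_le h (f := fun ω => if X ω = x then 1 else 0) fun ω => by split_ifs <;> norm_num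

end finite

section res

variable {S' S : Sys} {α β : Type*}

theorem Dns.nm (d : Dns S' S) : S'.nm = S.nm := by
  funext i
  unfold Sys.nm
  rw [d.L_eq]

theorem Dns.nu (d : Dns S' S) (n : ℕ → ℕ) : S'.nu n = S.nu n := by
  unfold Sys.nu
  rw [d.L_eq]

/-- composition -/
def Dns.comp {S'' : Sys} (d' : Dns S'' S') (d : Dns S' S) : Dns S'' S where
  π := fun i ω => d.π i (d'.π i ω)
  L_eq := d'.L_eq.trans d.L_eq
  dom := by
    intro ε hε
    filter_upwards [d'.dom (ε / 2) (by positivity), d.dom (ε / 2) (by positivity)] with i h1 h2 ω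
    have h3 := pr_comp_le (Q := S''.P i) (P := S'.P i) (π := d'.π i) h1 (d.π i) ω
    rw [d.L_eq] at h3
    have h4 := h2 ω
    have h5 : (2 : ℝ) ^ (ε * S.L i) = (2 : ℝ) ^ (ε / 2 * S.L i) * (2 : ℝ) ^ (ε / 2 * S.L i) := by
      rw [← Real.rpow_add (by norm_num)]
      congr 1
      ring
    rw [h5, mul_assoc]
    exact h3.trans (mul_le_mul_of_nonneg_left h4 (by positivity))

/-- the trivial restriction -/
def Dns.refl (S : Sys) : Dns S S where
  π := fun _ ω => ω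
  L_eq := rfl
  dom := by
    intro ε hε
    refine Eventually.of_forall fun i ω => ?_
    have h1 : (S.P i).pr (fun ω => ω) ω = (S.P i).w ω := Stk.pr_id (S.P i) ω
    rw [h1]
    have h2 : (1 : ℝ) ≤ (2 : ℝ) ^ (ε * S.L i) := Real.one_le_rpow (by norm_num) (by positivity)
    nlinarith [(S.P i).nn ω]

/-- the support is mapped into the support, eventually -/
theorem Dns.pos (d : Dns S' S) : ∀ᶠ i in (uf : Filter ℕ), ∀ ω, 0 < (S'.P i).w ω → 0 < (S.P i).w (d.π i ω) := by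
  filter_upwards [d.dom 1 one_pos] with i hi ω hω
  have h1 : 0 < (S'.P i).pr (d.π i) (d.π i ω) := (S'.P i).pr_pos (d.π i) hω
  have h2 := hi (d.π i ω)
  have h3 := (S.P i).nn (d.π i ω)
  rcases h3.lt_or_eq with h | h
  · exact h
  · rw [← h, mul_zero] at h2
    exact absurd h1 (not_lt.2 h2)

theorem Cnt.res {X : S.RV α} {Z : S.RV β} {r : ℝ} (h : Cnt S X Z r) (d : Dns S' S) : Cnt S' (d.pull X) (d.pull Z) r := by
  intro ε hε
  filter_upwards [h ε hε, d.pos] with i hi hp ω hω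
  obtain ⟨U, hU, hU'⟩ := hi (d.π i ω) (hp ω hω)
  rw [d.L_eq]
  exact ⟨U, hU, fun ω' hω' e => hU' _ (hp ω' hω') e⟩

theorem Unf.res {X : S.RV α} {r : ℝ} (h : Unf S X r) (d : Dns S' S) : Unf S' (d.pull X) r := by
  intro ε hε
  filter_upwards [h (ε / 2) (by positivity), d.dom (ε / 2) (by positivity)] with i h1 h2 ω
  have h3 := pr_comp_le (Q := S'.P i) (P := S.P i) (π := d.π i) h2 (X i) (X i (d.π i ω))
  have h4 := h1 (d.π i ω)
  have h5 : (2 : ℝ) ^ ((-r + ε) * S.L i) = (2 : ℝ) ^ (ε / 2 * S.L i) * (2 : ℝ) ^ ((-r + ε / 2) * S.L i) := by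
    rw [← Real.rpow_add (by norm_num)]
    congr 1
    ring
  rw [d.L_eq, h5]
  exact h3.trans (mul_le_mul_of_nonneg_left h4 (by positivity))

theorem Rare.res {E : ∀ i, S.Ω i → Prop} (h : Rare S E) (d : Dns S' S) : Rare S' (fun i ω => E i (d.π i ω)) := by
  classical
  obtain ⟨η, hη, h⟩ := h
  refine ⟨η / 2, by positivity, ?_⟩
  filter_upwards [h, d.dom (η / 2) (by positivity)] with i h1 h2
  unfold prb at h1 ⊢
  have h3 := ex_comp_le (Q := S'.P i) (P := S.P i) (π := d.π i) h2 (f := fun ω => if E i ω then 1 else 0)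
    fun ω => by split_ifs <;> norm_num
  rw [d.L_eq]
  have h5 : (2 : ℝ) ^ (-(η / 2 * S.L i)) = (2 : ℝ) ^ (η / 2 * S.L i) * (2 : ℝ) ^ (-(η * S.L i)) := by
    rw [← Real.rpow_add (by norm_num)]
    congr 1
    ring
  rw [h5]
  exact h3.trans (mul_le_mul_of_nonneg_left h1 (by positivity))

/-- a rare event is not the whole support -/
theorem Rare.not_all {E : ∀ i, S.Ω i → Prop} (h : Rare S E) : ¬ ∀ᶠ i in (uf : Filter ℕ), ∀ ω, 0 < (S.P i).w ω → E i ω := by
  classical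
  intro hall
  obtain ⟨η, hη, h⟩ := h
  have hL : Tendsto (fun i => (2 : ℝ) ^ (-(η * S.L i))) (uf : Filter ℕ) (𝓝 0) := by
    have h1 : Tendsto (fun i => η * (S.L i : ℝ)) (uf : Filter ℕ) atTop :=
      (tendsto_natCast_atTop_atTop.comp S.Ltop).const_mul_atTop hη
    have h2 := (tendsto_rpow_neg_atTop_of_two).comp h1
    exact h2
  have h3 := hL.eventually (gt_mem_nhds (show (0:ℝ) < 1 / 2 by norm_num))
  obtain ⟨i, hi1, hi2, hi3⟩ := (h.and (hall.and h3)).exists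
  have h4 : prb S E i = 1 := by
    unfold prb
    have : (S.P i).ex (fun ω => if E i ω then (1 : ℝ) else 0) = (S.P i).ex fun _ => 1 :=
      (S.P i).ex_congr fun ω hω => by simp [hi2 ω hω]
    rw [this, (S.P i).ex_const]
  rw [h4] at hi1
  linarith
where
  tendsto_rpow_neg_atTop_of_two : Tendsto (fun x : ℝ => (2 : ℝ) ^ (-x)) atTop (𝓝 0) := by
    have h1 : (fun x : ℝ => (2 : ℝ) ^ (-x)) = fun x => Real.exp (-(Real.log 2 * x)) := by
      funext x
      rw [Real.rpow_def_of_pos (by norm_num)]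
      congr 1
      ring
    rw [h1]
    exact Real.tendsto_exp_neg_atTop_nhds_zero.comp (tendsto_id.const_mul_atTop (Real.log_pos (by norm_num)))

end res

theorem Dens.anti {s : ℕ → Z2 → Fin 2 → ℝ} {n c : ℕ} {D D' : Set Nd} {lam : ℝ} (h : Dens s n c D lam) (hD : D' ⊆ D) :
    Dens s n c D' lam := fun θ u1 u2 p v T U h1 h2 h3 h4 =>
  h θ u1 u2 p v T U h1 h2 h3 fun S hS => ⟨hD (h4 S hS).1, (h4 S hS).2⟩

theorem Dens.mono {s : ℕ → Z2 → Fin 2 → ℝ} {n c : ℕ} {D : Set Nd} {lam lam' : ℝ} (h : Dens s n c D lam) (hl : lam ≤ lam') :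
    Dens s n c D lam' := fun θ u1 u2 p v T U h1 h2 h3 h4 => by
  have h0 : (0 : ℝ) ≤ u1 := le_trans (by positivity) h1
  have h0' : (0 : ℝ) ≤ u2 := h0.trans h2
  exact (h θ u1 u2 p v T U h1 h2 h3 h4).trans (mul_le_mul_of_nonneg_right hl (by positivity))

section flg

variable {K : ℕ} {F : Flg K} {S' : Sys} (d : Dns S' F.S) (hd : ∀ i ω, 0 < (S'.P i).w ω → 0 < (F.S.P i).w (d.π i ω))

theorem ExU.res {c : ℕ} {e : ℝ} (h : ExU F c e) : ExU (F.res d hd) c e := by
  intro ε hε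
  filter_upwards [h ε hε] with i hi
  have h1 : (F.res d hd).S.L i = F.S.L i := congrFun d.L_eq i
  rw [h1]
  refine hi.anti ?_
  rintro S ⟨ω, hω, e⟩
  exact ⟨d.π i ω, hd i ω hω, e⟩

theorem nα_res (jj : ℕ → ℕ → ℕ) (c : ℕ) : nα (F.res d hd) jj c = nα F jj c := by
  unfold nα
  have h1 : (F.res d hd).S.nu (jj c) = F.S.nu (jj c) := d.nu _
  rw [h1]

theorem Thin_res (e : ℕ → ℝ) (jj : ℕ → ℕ → ℕ) (κ c1 : ℝ) (c : ℕ) :
    Thin (F.res d hd) e jj κ c1 c ↔ Thin F e jj κ c1 c := by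
  unfold Thin
  rw [nα_res]

theorem RegA.res {J θ H e : ℕ → ℝ} {W : ℕ → F.S.BX} {kk jj : ℕ → ℕ → ℕ} (h : RegA F J θ H e W kk jj) :
    RegA (F.res d hd) J θ H e (fun c => d.pullB (W c)) kk jj where
  J0 := h.J0
  e0 := h.e0
  kid := fun c hc => (h.kid c hc).res d
  x1 := h.x1.res d
  flag := h.flag.res d
  Nu := fun c hc => (h.Nu c hc).res d
  N1 := fun c hc => (h.N1 c hc).res d
  L := h.L
  B1 := fun c hc => (h.B1 c hc).res d
  exU := fun c hc => (h.exU c hc).res d hd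
  Wok := fun c hc => by
    filter_upwards [h.Wok c hc] with i hi ω hω
    exact hi _ (hd i ω hω)
  Wfn := fun c hc => by
    filter_upwards [h.Wfn c hc] with i hi ω ω' h1 h2 e
    exact hi _ _ (hd i ω h1) (hd i ω' h2) e
  W1 := fun c hc => by
    have h1 := (h.W1 c hc).res d
    have h2 : (F.res d hd).S.nu (kk c) = F.S.nu (kk c) := d.nu _
    have h3 : (F.res d hd).S.nu (jj c) = F.S.nu (jj c) := d.nu _
    rw [h2, h3]
    exact h1

theorem RegB.res {J θ H e : ℕ → ℝ} {W : ℕ → F.S.BX} {kk jj : ℕ → ℕ → ℕ} {κ c1 : ℝ} {φ : ℕ → ℕ → Nd → ℝ} {JF : ℕ → ℝ}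
    (h : RegB F J θ H e W kk jj κ c1 φ JF) : RegB (F.res d hd) J θ H e (fun c => d.pullB (W c)) kk jj κ c1 φ JF where
  toRegA := h.toRegA.res d hd
  JF0 := h.JF0
  JF1 := h.JF1
  frame := fun c h1 hc ht => by
    rw [Thin_res] at ht
    filter_upwards [h.frame c h1 hc ht] with i hi ω hω
    have h2 : (F.res d hd).S.L i = F.S.L i := congrFun d.L_eq i
    rw [h2]
    exact hi _ (hd i ω hω)
  B2 := fun c h1 hc ht => by
    rw [Thin_res] at ht
    exact (h.B2 c h1 hc ht).res d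
  C2 := fun c h1 hc ht => by
    rw [Thin_res] at ht
    exact (h.C2 c h1 hc ht).res d

theorem ng_res (e : ℕ → ℝ) (jj : ℕ → ℕ → ℕ) (κ c1 : ℝ) (JF : ℕ → ℝ) (c : ℕ) :
    ng (F.res d hd) e jj κ c1 JF c = ng F e jj κ c1 JF c := by
  classical
  unfold ng
  refine Finset.sum_congr rfl fun i _ => ?_
  rw [if_congr (and_congr_right fun _ => Thin_res d hd e jj κ c1 i) rfl rfl]

end flg

end Vale.Agent.P122.E
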