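import Vale.Agent.P122.H610.Stab
import Vale.Agent.P122.E.Res

/-!
# P122 / E : the statements of [RG] at the level of sequences of valid structures (helper357)

In the names of helper610: `Z : CS K`, `W : VS Z`, `W.Jn`, `W.en`, `W.Stable`, `W'.Le W`, `W'.Incl W`.

* `thn W c` local gain (`= W.θn c`);
* `RG0` (428), `RGmin` (616), `RG1` (11; from `RGmin`, `RGlaw` 610, `RGuni` 563, `RGbox` 286), `RG2` (425, 474, 679, 311).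
-/

set_option autoImplicit false

namespace Vale.Agent.P122.E

open Filter Topology Finset Vale.Agent.P127 Vale.Agent.P127.Stk Vale.Agent.P127.U Vale.Agent.P127.U.Sys Vale.Agent.P122.C2
  Vale.Agent.P122.H610

/-- local gain: `a c / a (c+1) ≤ 2 ^ (J / 2 + θ)`, `θ ≥ 0` -/
noncomputable def thn {K : ℕ} {Z : CS K} (W : VS Z) (c : ℕ) : ℝ :=
  Z.lg fun i => max 0 (Real.logb 2 (W.a i c / W.a i (c + 1)) - (W.J i c : ℝ) / 2)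

/-- **RG0** initial valid structures (428) -/
def RG0 : Prop := ∀ (K : ℕ) (C δ : ℝ), 1 ≤ K → 1 ≤ C → 0 < δ → ∃ n0 : ℕ, ∀ (Z : CS K) (Λ Q : ℕ → ℝ) (X : ℕ → Finset Nd),
  Z.C = C → (∀ i, n0 ≤ Z.n i) → (∀ i, KTop (Z.F i) (Λ i)) → (∀ i (U : Finset Nd), ∑ S ∈ U, (Z.F i).a K S ^ 2 ≤ Q i) →
  (∀ i, ∀ x ∈ X i, x.τ = 0 ∧ 0 ≤ x.T ∧ x.T < 2 ^ (2 * K * Z.n i)) →
  (∀ i, (2 : ℝ) ^ (δ * (K * Z.n i)) * Real.sqrt (Λ i) * 2 ^ (4 * K * Z.n i) * Q i < ∑ x ∈ X i, (Z.F i).a 0 x ^ 3) →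
  ∃ W : VS Z, ∀ ε : ℝ, 0 < ε → ∀ᶠ i in (uf : Filter ℕ),
    (2 : ℝ) ^ ((δ - ε) * (K * Z.n i)) * Real.sqrt (Λ i) * 2 ^ (4 * K * Z.n i) * Q i ≤ (W.V i).X.card * W.a i 0 ^ 3

/-- **RGmin** minimiser (616) -/
def RGmin : Prop := ∀ {K : ℕ} (Z : CS K) (W : VS Z), ∃ W' : VS Z, W'.Le W ∧ W'.Stable

/-- **RG1** first part of the regular structure (11) -/
def RG1 : Prop := ∀ {K : ℕ} (Z : CS K) (W : VS Z), ∃ W' : VS Z, W'.Le W ∧ W'.Stable ∧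
  ∃ (H : ℕ → ℝ) (B : ℕ → W'.sys.BX) (kk jj : ℕ → ℕ → ℕ), RegA W'.flg W'.Jn (thn W') H W'.en B kk jj

/-- **RG2** frames and columns (425, 474, 679, 311) -/
def RG2 : Prop := ∀ (κ C₀ : ℝ), 0 < κ → κ ≤ 1 → 1 ≤ C₀ → E8 κ C₀ →
  ∀ {K : ℕ} (Z : CS K) (W : VS Z) (H : ℕ → ℝ) (B : ℕ → W.sys.BX) (kk jj : ℕ → ℕ → ℕ) (c1 : ℝ), W.Stable →
    RegA W.flg W.Jn (thn W) H W.en B kk jj → 0 < c1 → C₀ / K ≤ c1 → 1 / K ≤ κ * c1 →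
    ∃ W' : VS Z, W'.Le W ∧ ∃ (B' : ℕ → W'.sys.BX) (φ : ℕ → ℕ → Nd → ℝ) (JF : ℕ → ℝ),
      RegB W'.flg W.Jn (thn W) H W.en B' kk jj κ c1 φ JF

end Vale.Agent.P122.E
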