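import Vale.Agent.P122.E.RG
import Vale.Agent.P122.S.Prof
import Vale.Agent.P122.H563.Viol

/-!
# P122 / E : `StRG` from `RG0`, `RG1`, `RG2` (helper357)
-/

set_option autoImplicit false

namespace Vale.Agent.P122.E

open Filter Topology Finset Vale.Agent.P127 Vale.Agent.P127.Stk Vale.Agent.P127.U Vale.Agent.P127.U.Sys Vale.Agent.P122.C2
  Vale.Agent.P122.H610

section

variable {K : ℕ} {Z : CS K}

theorem thn_OL (W : VS Z) {c : ℕ} (hc : c < K) :
    Z.OL fun i => max 0 (Real.logb 2 (W.a i c / W.a i (c + 1)) - (W.J i c : ℝ) / 2) := by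
  refine CS.OL.of_le (c := 4) (Eventually.of_forall fun i => le_max_left _ _) ?_
  filter_upwards [W.ρbig.neg_log_le one_pos, CS.const_le (Z := Z) (Real.logb 2 (4 * Z.C)) one_pos, Z.L_pos] with i h1 h2 h3
  have hC : 0 < Z.C := lt_of_lt_of_le one_pos Z.C1
  obtain ⟨S, hS⟩ : ((W.V i).D (Z.F i).s (Z.n i) c).Nonempty := by
    obtain ⟨f, hf⟩ := W.fl_ne i
    exact ⟨_, nd_D (W.ok i) hc.le hf⟩
  have h4 := (W.ok i).L (W.ρpos i) hC.le hc hS
  have a0 := (W.ok i).apos c hc.le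
  have a1 := (W.ok i).apos (c + 1) (by omega)
  have hJ : (W.J i c : ℝ) ≤ 2 * Z.L i := by
    have h5 : (W.J i c : ℝ) ≤ 2 * Z.n i := by exact_mod_cast W.J_le i c hc
    have := Z.n_le_L i
    linarith
  have h6 : W.a i c / W.a i (c + 1) ≤ 4 * Z.C * 2 ^ (W.J i c) / W.ρ i := by
    rw [div_le_div_iff₀ a1 (W.ρpos i)]
    linarith
  have h7 := Real.logb_le_logb_of_le (by norm_num : (1:ℝ) < 2) (by positivity) h6
  rw [Real.logb_div (by positivity) (W.ρpos i).ne', Real.logb_mul (by positivity) (by positivity),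
    ← Real.rpow_natCast, Real.logb_rpow (by norm_num) (by norm_num)] at h7
  refine max_le (by positivity) ?_
  have h8 : (0 : ℝ) ≤ W.J i c := Nat.cast_nonneg _
  linarith

theorem amp_thn (W : VS Z) {c : ℕ} (hc : c < K) (ε : ℝ) (hε : 0 < ε) : ∀ᶠ i in (uf : Filter ℕ),
    W.a i c ≤ (2 : ℝ) ^ ((W.Jn c / 2 + thn W c + ε) * (K * Z.n i)) * W.a i (c + 1) := by
  filter_upwards [CS.le_lg (thn_OL W hc) (half_pos hε), CS.le_lg (W.J_OL hc) hε] with i h1 h2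
  have a0 := (W.ok i).apos c hc.le
  have a1 := (W.ok i).apos (c + 1) (by omega)
  rw [← div_le_iff₀ a1, ← Real.logb_le_iff_le_rpow (by norm_num) (by positivity)]
  have h3 := (le_max_right 0 _).trans h1
  have e : (K : ℝ) * Z.n i = Z.L i := (Z.L_eq i).symm
  rw [e]
  have h4 : Z.lg (fun i => (W.J i c : ℝ)) = W.Jn c := rfl
  have h5 : Z.lg (fun i => max 0 (Real.logb 2 (W.a i c / W.a i (c + 1)) - (W.J i c : ℝ) / 2)) = thn W c := rfl
  rw [h4] at h2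
  rw [h5] at h3
  nlinarith

end

/-- **[RG]** -/
theorem strg_of (h0 : RG0) (h1 : RG1) (h2 : RG2) {κ : ℝ} (hκ : 0 < κ) (hκ1 : κ ≤ 1) : S.StRG κ := by
  intro C₀ hC₀ h8 δ c1 hδ hc1
  obtain ⟨K1, hK1⟩ := exists_nat_gt (max (C₀ / c1) (1 / (κ * c1)))
  refine ⟨max 1 K1, le_max_left _ _, fun K hK C hC hv => ?_⟩
  have hKK : 1 ≤ K := (le_max_left _ _).trans hK
  have hKp : (0 : ℝ) < K := by exact_mod_cast hKK
  have hK' : (K1 : ℝ) ≤ K := by exact_mod_cast (le_max_right 1 K1).trans hK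
  have hCK : C₀ / K ≤ c1 := by
    have := (le_max_left (C₀ / c1) (1 / (κ * c1))).trans (hK1.le.trans hK')
    rw [div_le_iff₀ hc1] at this
    rw [div_le_iff₀ hKp]
    linarith
  have hκK : 1 / K ≤ κ * c1 := by
    have := (le_max_right (C₀ / c1) (1 / (κ * c1))).trans (hK1.le.trans hK')
    rw [div_le_iff₀ (by positivity)] at this
    rw [div_le_iff₀ hKp]
    linarith
  obtain ⟨n0, hn0⟩ := h0 K C δ hKK hC hδ
  choose n hn F Λ Q g1 g2 X g3 g4 using fun i : ℕ => hv (max n0 i)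
  have ntop : Tendsto n (uf : Filter ℕ) atTop :=
    tendsto_atTop_mono (fun i => (le_max_right n0 i).trans (hn i)) (tendsto_id.mono_left uf_le)
  let Z : CS K := ⟨hKK, n, ntop, C, hC, F⟩
  obtain ⟨W0, hW0⟩ := hn0 Z Λ Q X rfl (fun i => (le_max_left n0 i).trans (hn i)) g1 g2 g3 g4
  obtain ⟨W1, hle, hS, H, B, kk, jj, hA⟩ := h1 Z W0
  obtain ⟨W2, hle2, B', φ, JF, hB⟩ := h2 κ C₀ hκ hκ1 hC₀ h8 Z W1 H B kk jj c1 hS hA hc1 hCK hκK
  refine ⟨W2.flg, W1.Jn, thn W1, H, W1.en, B', kk, jj, φ, JF, hB, ?_⟩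
  have h3 := H563.rg_viol hle (Λ := Λ) (Q := Q) (δ := δ) g1 g2 hW0 (J := W1.Jn) (θ := thn W1) (H := H) (e := W1.en)
    hA.x1 (hA.Nu K le_rfl) (fun c hc ε hε => amp_thn W1 hc ε hε) (hA.e0 0 (Nat.zero_le K)) (le_of_eq ?_)
  · linarith
  · unfold VS.en
    congr 1

end Vale.Agent.P122.E
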